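import Mathlib

open scoped ContDiff
open MeasureTheory Set

namespace Vale.Agent.Results.P247.TorusTriKaehler

/-- Coordinates on the universal cover of the four-torus. -/
abbrev R4 := Fin 4 → ℝ

/-- The coordinate derivative of `f` in direction `j` at `x`. -/
noncomputable def pd (j : Fin 4) (f : R4 → ℝ) (x : R4) : ℝ := fderiv ℝ f x (Pi.single j 1)

/-- Invariance under the lattice of integer translations. -/
def Periodic4 {β : Type} (f : R4 → β) : Prop :=
  ∀ (x : R4) (k : Fin 4 → ℤ), f (x + fun i => (k i : ℝ)) = f x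

/-- A smooth one-form on the torus, given by its components `a x k`. -/
structure IsOneForm (a : R4 → Fin 4 → ℝ) : Prop where
  smooth : ∀ k, ContDiff ℝ ∞ (fun x => a x k)
  periodic : Periodic4 a

/-- A smooth two-form on the torus, given by its antisymmetric components `w x j k`. -/
structure IsTwoForm (w : R4 → Fin 4 → Fin 4 → ℝ) : Prop where
  smooth : ∀ j k, ContDiff ℝ ∞ (fun x => w x j k)
  periodic : Periodic4 w
  antisymm : ∀ x j k, w x j k = - w x k j

/-- Closedness of a two-form, in components. -/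
def IsClosedForm (w : R4 → Fin 4 → Fin 4 → ℝ) : Prop :=
  ∀ x i j k, pd i (fun y => w y j k) x + pd j (fun y => w y k i) x
    + pd k (fun y => w y i j) x = 0

/-- The coefficient of `dx0 dx1 dx2 dx3` in the wedge product of two two-forms at a point. -/
def wedge (a b : Fin 4 → Fin 4 → ℝ) : ℝ :=
  a 0 1 * b 2 3 - a 0 2 * b 1 3 + a 0 3 * b 1 2 + a 1 2 * b 0 3 - a 1 3 * b 0 2 + a 2 3 * b 0 1

/-- Two two-forms on the torus differ by the exterior derivative of a one-form on the torus. -/
def Cohomologous (w w' : R4 → Fin 4 → Fin 4 → ℝ) : Prop :=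
  ∃ a : R4 → Fin 4 → ℝ, IsOneForm a ∧
    ∀ x j k, w' x j k - w x j k = pd j (fun y => a y k) x - pd k (fun y => a y j) x

/-- A hypersymplectic structure on the torus. -/
structure IsHypersymplectic (W : Fin 3 → R4 → Fin 4 → Fin 4 → ℝ) : Prop where
  form : ∀ i, IsTwoForm (W i)
  closed : ∀ i, IsClosedForm (W i)
  pos : ∀ (x : R4) (l : Fin 3 → ℝ), l ≠ 0 →
    0 < ∑ i, ∑ j, l i * l j * wedge (W i x) (W j x)

/-- A hyperkaehler triple on the torus: the volume form is `ρ dx0 dx1 dx2 dx3`. -/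
structure IsHyperkaehler (W : Fin 3 → R4 → Fin 4 → Fin 4 → ℝ) : Prop where
  form : ∀ i, IsTwoForm (W i)
  closed : ∀ i, IsClosedForm (W i)
  vol : ∃ ρ : R4 → ℝ, ContDiff ℝ ∞ ρ ∧ Periodic4 ρ ∧ (∀ x, 0 < ρ x) ∧
    ∀ x i j, wedge (W i x) (W j x) = if i = j then 2 * ρ x else 0

/-- A cohomologous deformation of `W`. -/
structure IsCohomologousDeformation (W : Fin 3 → R4 → Fin 4 → Fin 4 → ℝ)
    (Ω : ℝ → Fin 3 → R4 → Fin 4 → Fin 4 → ℝ) : Prop where
  smooth : ∀ i j k, ContDiff ℝ ∞ (fun p : ℝ × R4 => Ω p.1 i p.2 j k)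
  hyper : ∀ t ∈ Icc (0 : ℝ) 1, IsHypersymplectic (Ω t)
  start : Ω 0 = W
  coh : ∀ t ∈ Icc (0 : ℝ) 1, ∀ i, Cohomologous (W i) (Ω t i)

lemma wedge_comm (a b : Fin 4 → Fin 4 → ℝ) : wedge a b = wedge b a := by
  unfold wedge; ring

lemma wedge_lin (s t : ℝ) (a b e : Fin 4 → Fin 4 → ℝ) :
    wedge (fun j k => s * a j k + t * b j k) e = s * wedge a e + t * wedge b e := by
  unfold wedge; ring

/-- No four-dimensional positive subspace: a form orthogonal to an orthogonal positive triple
has nonpositive square. -/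
lemma neg_of_orth (c : Fin 3 → Fin 4 → Fin 4 → ℝ) (m : ℝ) (hm : 0 < m)
    (hc : ∀ i j, wedge (c i) (c j) = if i = j then m else 0)
    (η : Fin 4 → Fin 4 → ℝ) (hη : ∀ j, wedge η (c j) = 0) : wedge η η ≤ 0 := by
  by_contra hpos
  replace hpos : 0 < wedge η η := not_le.1 hpos
  let f : (Fin 4 → ℝ) →ₗ[ℝ] (Fin 3 → ℝ) :=
    { toFun := fun t => ![t 0 * c 0 2 3 + t 1 * c 1 2 3 + t 2 * c 2 2 3 + t 3 * η 2 3,
                          t 0 * c 0 1 3 + t 1 * c 1 1 3 + t 2 * c 2 1 3 + t 3 * η 1 3,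
                          t 0 * c 0 1 2 + t 1 * c 1 1 2 + t 2 * c 2 1 2 + t 3 * η 1 2]
      map_add' := by
        intro s t
        ext i
        fin_cases i <;> simp <;> ring
      map_smul' := by
        intro r t
        ext i
        fin_cases i <;> simp <;> ring }
  have hker : LinearMap.ker f ≠ ⊥ := by
    apply LinearMap.ker_ne_bot_of_finrank_lt
    simp
  obtain ⟨t, ht, ht0⟩ := (Submodule.ne_bot_iff _).1 hker
  have hft : f t = 0 := ht
  have h1 : t 0 * c 0 2 3 + t 1 * c 1 2 3 + t 2 * c 2 2 3 + t 3 * η 2 3 = 0 := by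
    have := congrFun hft 0
    simpa [f] using this
  have h2 : t 0 * c 0 1 3 + t 1 * c 1 1 3 + t 2 * c 2 1 3 + t 3 * η 1 3 = 0 := by
    have := congrFun hft 1
    simpa [f] using this
  have h3 : t 0 * c 0 1 2 + t 1 * c 1 1 2 + t 2 * c 2 1 2 + t 3 * η 1 2 = 0 := by
    have := congrFun hft 2
    simpa [f] using this
  -- the combination
  set v : Fin 4 → Fin 4 → ℝ := fun j k => t 0 * c 0 j k + t 1 * c 1 j k + t 2 * c 2 j k
    + t 3 * η j k with hv
  have hv0 : wedge v v = 0 := by
    have e1 : v 2 3 = 0 := h1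
    have e2 : v 1 3 = 0 := h2
    have e3 : v 1 2 = 0 := h3
    unfold wedge
    rw [e1, e2, e3]; ring
  have hexp : wedge v v = m * (t 0 ^ 2 + t 1 ^ 2 + t 2 ^ 2) + t 3 ^ 2 * wedge η η := by
    have c00 := hc 0 0
    have c11 := hc 1 1
    have c22 := hc 2 2
    have c01 := hc 0 1
    have c02 := hc 0 2
    have c12 := hc 1 2
    have e0 := hη 0
    have e1 := hη 1
    have e2 := hη 2
    simp at c00 c11 c22 c01 c02 c12
    have : wedge v v = t 0 ^ 2 * wedge (c 0) (c 0) + t 1 ^ 2 * wedge (c 1) (c 1)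
        + t 2 ^ 2 * wedge (c 2) (c 2) + 2 * t 0 * t 1 * wedge (c 0) (c 1)
        + 2 * t 0 * t 2 * wedge (c 0) (c 2) + 2 * t 1 * t 2 * wedge (c 1) (c 2)
        + 2 * t 0 * t 3 * wedge η (c 0) + 2 * t 1 * t 3 * wedge η (c 1)
        + 2 * t 2 * t 3 * wedge η (c 2) + t 3 ^ 2 * wedge η η := by
      simp only [hv, wedge]; ring
    rw [this, c00, c11, c22, c01, c02, c12, e0, e1, e2]; ring
  have hz : t 0 = 0 ∧ t 1 = 0 ∧ t 2 = 0 ∧ t 3 = 0 := by
    have hsum : m * (t 0 ^ 2 + t 1 ^ 2 + t 2 ^ 2) + t 3 ^ 2 * wedge η η = 0 := by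
      rw [← hexp, hv0]
    have a0 : 0 ≤ m * t 0 ^ 2 := by positivity
    have a1 : 0 ≤ m * t 1 ^ 2 := by positivity
    have a2 : 0 ≤ m * t 2 ^ 2 := by positivity
    have a3 : 0 ≤ t 3 ^ 2 * wedge η η := by positivity
    have b0 : m * t 0 ^ 2 = 0 := by nlinarith
    have b1 : m * t 1 ^ 2 = 0 := by nlinarith
    have b2 : m * t 2 ^ 2 = 0 := by nlinarith
    have b3 : t 3 ^ 2 * wedge η η = 0 := by nlinarith
    refine ⟨?_, ?_, ?_, ?_⟩
    · have := (mul_eq_zero.1 b0).resolve_left hm.ne'
      exact pow_eq_zero_iff (two_ne_zero) |>.1 this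
    · have := (mul_eq_zero.1 b1).resolve_left hm.ne'
      exact pow_eq_zero_iff (two_ne_zero) |>.1 this
    · have := (mul_eq_zero.1 b2).resolve_left hm.ne'
      exact pow_eq_zero_iff (two_ne_zero) |>.1 this
    · have := (mul_eq_zero.1 b3).resolve_right hpos.ne'
      exact pow_eq_zero_iff (two_ne_zero) |>.1 this
  apply ht0
  ext i
  fin_cases i
  · exact hz.1
  · exact hz.2.1
  · exact hz.2.2.1
  · exact hz.2.2.2


/-- The integral over the unit cube of the divergence of a periodic vector field vanishes. -/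
lemma integral_div_eq_zero (F : Fin 4 → R4 → ℝ) (hF : ∀ i, ContDiff ℝ ∞ (F i))
    (hper : ∀ i, Periodic4 (F i)) :
    ∫ x in Icc (0 : R4) 1, ∑ i, pd i (F i) x = 0 := by
  have hdiff : ∀ i x, HasFDerivAt (F i) (fderiv ℝ (F i) x) x := fun i x =>
    ((hF i).differentiable (by simp)).differentiableAt.hasFDerivAt
  have hcont : ∀ i, Continuous (fun x => pd i (F i) x) := by
    intro i
    have h1 : Continuous (fderiv ℝ (F i)) := (hF i).continuous_fderiv (by simp)
    exact h1.clm_apply continuous_const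
  have hint : IntegrableOn (fun x => ∑ i, (fderiv ℝ (F i) x) (Pi.single i 1)) (Icc (0 : R4) 1)
      volume := by
    apply Continuous.integrableOn_Icc
    exact continuous_finsetSum _ (fun i _ => hcont i)
  have key := integral_divergence_of_hasFDerivAt_off_countable' (0 : R4) 1 (by
      intro i; simp) F (fun i x => fderiv ℝ (F i) x) ∅ countable_empty
      (fun i => (hF i).continuous.continuousOn) (fun x _ i => hdiff i x) hint
  unfold pd
  rw [key]
  apply Finset.sum_eq_zero
  intro i _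
  rw [sub_eq_zero]
  congr 1
  ext x
  have := hper i (i.insertNth (0 : ℝ) x) (fun j => if j = i then 1 else 0)
  simp only [Pi.one_apply, Pi.zero_apply]
  rw [← this]
  congr 1
  ext j
  by_cases hj : j = i
  · subst hj
    simp
  · obtain ⟨k, rfl⟩ := Fin.exists_succAbove_eq hj
    simp [hj]


lemma pd_lin3 (i : Fin 4) (f g h : R4 → ℝ) (hf : Differentiable ℝ f) (hg : Differentiable ℝ g)
    (hh : Differentiable ℝ h) (p q r : ℝ) (x : R4) :
    pd i (fun y => p * f y + q * g y + r * h y) x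
      = p * pd i f x + q * pd i g x + r * pd i h x := by
  unfold pd
  have := ((((hf x).hasFDerivAt.const_mul p).add ((hg x).hasFDerivAt.const_mul q)).add
    ((hh x).hasFDerivAt.const_mul r)).fderiv
  have h2 : fderiv ℝ (fun y => p * f y + q * g y + r * h y) x
      = p • fderiv ℝ f x + q • fderiv ℝ g x + r • fderiv ℝ h x := this
  rw [h2]
  simp

lemma pd_lin2c (i : Fin 4) (f : R4 → ℝ) (hf : Differentiable ℝ f) (p q : ℝ) (x : R4) :
    pd i (fun y => p * f y + q) x = p * pd i f x := by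
  unfold pd
  have := (((hf x).hasFDerivAt.const_mul p).add_const q).fderiv
  have h2 : fderiv ℝ (fun y => p * f y + q) x = p • fderiv ℝ f x := this
  rw [h2]
  simp

/-- The exterior derivative of a one-form, in components. -/
noncomputable def dOne (a : R4 → Fin 4 → ℝ) (x : R4) : Fin 4 → Fin 4 → ℝ :=
  fun j k => pd j (fun y => a y k) x - pd k (fun y => a y j) x

lemma integral_wedge_exact (a : R4 → Fin 4 → ℝ) (ha : IsOneForm a) (e : Fin 4 → Fin 4 → ℝ) :
    ∫ x in Icc (0 : R4) 1, wedge (dOne a x) e = 0 := by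
  have hd : ∀ k, Differentiable ℝ (fun y => a y k) := fun k =>
    (ha.smooth k).differentiable (by simp)
  let F : Fin 4 → R4 → ℝ := ![
    fun y => e 2 3 * a y 1 + (- e 1 3) * a y 2 + e 1 2 * a y 3,
    fun y => (- e 2 3) * a y 0 + e 0 3 * a y 2 + (- e 0 2) * a y 3,
    fun y => e 1 3 * a y 0 + (- e 0 3) * a y 1 + e 0 1 * a y 3,
    fun y => (- e 1 2) * a y 0 + e 0 2 * a y 1 + (- e 0 1) * a y 2]
  have hF : ∀ i, ContDiff ℝ ∞ (F i) := by
    intro i
    fin_cases i
    · exact ((contDiff_const.mul (ha.smooth 1)).add (contDiff_const.mul (ha.smooth 2))).add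
        (contDiff_const.mul (ha.smooth 3))
    · exact ((contDiff_const.mul (ha.smooth 0)).add (contDiff_const.mul (ha.smooth 2))).add
        (contDiff_const.mul (ha.smooth 3))
    · exact ((contDiff_const.mul (ha.smooth 0)).add (contDiff_const.mul (ha.smooth 1))).add
        (contDiff_const.mul (ha.smooth 3))
    · exact ((contDiff_const.mul (ha.smooth 0)).add (contDiff_const.mul (ha.smooth 1))).add
        (contDiff_const.mul (ha.smooth 2))
  have hper : ∀ i, Periodic4 (F i) := by
    intro i x k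
    have := ha.periodic x k
    fin_cases i <;> simp [F, this]
  have key := integral_div_eq_zero F hF hper
  rw [← key]
  congr 1
  ext x
  rw [Fin.sum_univ_four]
  have e0 : pd 0 (F 0) x = e 2 3 * pd 0 (fun y => a y 1) x + (- e 1 3) * pd 0 (fun y => a y 2) x
      + e 1 2 * pd 0 (fun y => a y 3) x := pd_lin3 0 _ _ _ (hd 1) (hd 2) (hd 3) _ _ _ x
  have e1 : pd 1 (F 1) x = (- e 2 3) * pd 1 (fun y => a y 0) x + e 0 3 * pd 1 (fun y => a y 2) x
      + (- e 0 2) * pd 1 (fun y => a y 3) x := pd_lin3 1 _ _ _ (hd 0) (hd 2) (hd 3) _ _ _ x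
  have e2 : pd 2 (F 2) x = e 1 3 * pd 2 (fun y => a y 0) x + (- e 0 3) * pd 2 (fun y => a y 1) x
      + e 0 1 * pd 2 (fun y => a y 3) x := pd_lin3 2 _ _ _ (hd 0) (hd 1) (hd 3) _ _ _ x
  have e3 : pd 3 (F 3) x = (- e 1 2) * pd 3 (fun y => a y 0) x + e 0 2 * pd 3 (fun y => a y 1) x
      + (- e 0 1) * pd 3 (fun y => a y 2) x := pd_lin3 3 _ _ _ (hd 0) (hd 1) (hd 2) _ _ _ x
  rw [e0, e1, e2, e3]
  unfold wedge dOne
  ring


lemma wedge_continuous (w : R4 → Fin 4 → Fin 4 → ℝ) (hw : IsTwoForm w)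
    (e : Fin 4 → Fin 4 → ℝ) : Continuous (fun x => wedge (w x) e) := by
  have h : ∀ j k, Continuous (fun x => w x j k) := fun j k => (hw.smooth j k).continuous
  unfold wedge
  exact (((((((h 0 1).mul continuous_const).sub ((h 0 2).mul continuous_const)).add
    ((h 0 3).mul continuous_const)).add ((h 1 2).mul continuous_const)).sub
    ((h 1 3).mul continuous_const)).add ((h 2 3).mul continuous_const))

lemma mixed_pos (W : Fin 3 → R4 → Fin 4 → Fin 4 → ℝ) (hW : IsHypersymplectic W)
    (c : Fin 3 → Fin 4 → Fin 4 → ℝ) (m : ℝ) (hm : 0 < m)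
    (hc : ∀ i j, wedge (c i) (c j) = if i = j then m else 0)
    (hcoh : ∀ i, Cohomologous (fun _ => c i) (W i))
    (hK : ∀ x i j, i ≠ j → wedge (W i x) (c j) = 0) (i : Fin 3) (x : R4) :
    0 < wedge (W i x) (c i) := by
  obtain ⟨a, ha, hda⟩ := hcoh i
  set g : R4 → ℝ := fun x => wedge (W i x) (c i) with hg
  have hgc : Continuous g := wedge_continuous (W i) (hW.form i) (c i)
  have hg_eq : ∀ y, g y = m + wedge (dOne a y) (c i) := by
    intro y
    have h1 : W i y = fun j k => 1 * c i j k + 1 * dOne a y j k := by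
      ext j k
      have := hda y j k
      simp only [dOne]
      linarith
    have h2 := wedge_lin 1 1 (c i) (dOne a y) (c i)
    have h3 := hc i i
    simp only [if_true] at h3
    simp only [hg]
    rw [h1, h2, h3]; ring
  have hne : ∀ y, g y ≠ 0 := by
    intro y hy
    have h1 : wedge (W i y) (W i y) ≤ 0 := by
      apply neg_of_orth c m hm hc
      intro j
      by_cases hij : i = j
      · subst hij; exact hy
      · exact hK y i j hij
    have h2 := hW.pos y (Pi.single i 1) (by
      intro h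
      have := congrFun h i
      simp at this)
    have h3 : ∑ i', ∑ j, (Pi.single i 1 : Fin 3 → ℝ) i' * (Pi.single i 1 : Fin 3 → ℝ) j
        * wedge (W i' y) (W j y) = wedge (W i y) (W i y) := by
      rw [Finset.sum_eq_single i]
      · rw [Finset.sum_eq_single i]
        · simp
        · intro b _ hb
          simp [Pi.single_eq_of_ne hb]
        · simp
      · intro b _ hb
        simp [Pi.single_eq_of_ne hb]
      · simp
    rw [h3] at h2
    linarith
  have hint : ∫ y in Icc (0 : R4) 1, g y = m := by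
    have h1 : (fun y => g y) = fun y => m + wedge (dOne a y) (c i) := funext hg_eq
    have hI : IntegrableOn (fun y => wedge (dOne a y) (c i)) (Icc (0 : R4) 1) volume := by
      have : (fun y => wedge (dOne a y) (c i)) = fun y => g y - m := by
        ext y; rw [hg_eq y]; ring
      rw [this]
      exact (hgc.sub continuous_const).integrableOn_Icc
    have hvol : (volume : Measure R4).real (Icc (0 : R4) 1) = 1 := by
      simp [Measure.real, Real.volume_Icc_pi]
    have hI0 : IntegrableOn (fun _ : R4 => m) (Icc (0 : R4) 1) volume :=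
      (continuous_const).integrableOn_Icc
    rw [h1, integral_add hI0 hI, integral_wedge_exact a ha (c i)]
    simp [hvol]
  by_contra hx
  have hx' : g x < 0 := lt_of_le_of_ne (not_lt.1 hx) (hne x)
  have hall : ∀ y, g y ≤ 0 := by
    intro y
    by_contra hy
    have hy' : 0 < g y := not_le.1 hy
    have := isPreconnected_univ.intermediate_value (mem_univ x) (mem_univ y) hgc.continuousOn
      ⟨hx'.le, hy'.le⟩
    obtain ⟨z, _, hz⟩ := this
    exact hne z hz
  have : ∫ y in Icc (0 : R4) 1, g y ≤ 0 := integral_nonpos hall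
  linarith


lemma pd_smul (i : Fin 4) (f : R4 → ℝ) (hf : Differentiable ℝ f) (p : ℝ) (x : R4) :
    pd i (fun y => p * f y) x = p * pd i f x := by
  unfold pd
  have := ((hf x).hasFDerivAt.const_mul p).fderiv
  have h2 : fderiv ℝ (fun y => p * f y) x = p • fderiv ℝ f x := this
  rw [h2]
  simp

/-- The straight line from `W` to the constant triple `c`. -/
def linePath (W : Fin 3 → R4 → Fin 4 → Fin 4 → ℝ) (c : Fin 3 → Fin 4 → Fin 4 → ℝ) :
    ℝ → Fin 3 → R4 → Fin 4 → Fin 4 → ℝ :=
  fun t i x j k => (1 - t) * W i x j k + t * c i j k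

lemma linePath_form (W : Fin 3 → R4 → Fin 4 → Fin 4 → ℝ) (hW : ∀ i, IsTwoForm (W i))
    (c : Fin 3 → Fin 4 → Fin 4 → ℝ) (hca : ∀ i j k, c i j k = - c i k j) (t : ℝ) (i : Fin 3) :
    IsTwoForm (linePath W c t i) where
  smooth := fun j k => (contDiff_const.mul ((hW i).smooth j k)).add contDiff_const
  periodic := by
    intro x k
    have := (hW i).periodic x k
    ext j k'
    simp only [linePath, this]
  antisymm := by
    intro x j k
    simp only [linePath]
    rw [(hW i).antisymm x j k, hca i j k]; ring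

lemma linePath_closed (W : Fin 3 → R4 → Fin 4 → Fin 4 → ℝ) (hW : ∀ i, IsTwoForm (W i))
    (hcl : ∀ i, IsClosedForm (W i))
    (c : Fin 3 → Fin 4 → Fin 4 → ℝ) (t : ℝ) (i : Fin 3) :
    IsClosedForm (linePath W c t i) := by
  intro x a b e
  have hd : ∀ j k, Differentiable ℝ (fun y => W i y j k) := fun j k =>
    ((hW i).smooth j k).differentiable (by simp)
  have h := hcl i x a b e
  simp only [linePath]
  rw [pd_lin2c a _ (hd b e), pd_lin2c b _ (hd e a), pd_lin2c e _ (hd a b)]
  have : (1 - t) * pd a (fun y => W i y b e) x + (1 - t) * pd b (fun y => W i y e a) x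
      + (1 - t) * pd e (fun y => W i y a b) x
      = (1 - t) * (pd a (fun y => W i y b e) x + pd b (fun y => W i y e a) x
        + pd e (fun y => W i y a b) x) := by ring
  rw [this, h, mul_zero]

lemma linePath_pos (W : Fin 3 → R4 → Fin 4 → Fin 4 → ℝ) (hW : IsHypersymplectic W)
    (c : Fin 3 → Fin 4 → Fin 4 → ℝ) (m : ℝ) (hm : 0 < m)
    (hc : ∀ i j, wedge (c i) (c j) = if i = j then m else 0)
    (hcoh : ∀ i, Cohomologous (fun _ => c i) (W i))
    (hK : ∀ x i j, i ≠ j → wedge (W i x) (c j) = 0)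
    (t : ℝ) (ht : t ∈ Icc (0 : ℝ) 1) (x : R4) (l : Fin 3 → ℝ) (hl : l ≠ 0) :
    0 < ∑ i, ∑ j, l i * l j * wedge (linePath W c t i x) (linePath W c t j x) := by
  have key : ∀ i j, wedge (linePath W c t i x) (linePath W c t j x)
      = (1 - t) ^ 2 * wedge (W i x) (W j x)
        + (1 - t) * t * (wedge (W i x) (c j) + wedge (W j x) (c i))
        + t ^ 2 * wedge (c i) (c j) := by
    intro i j
    simp only [wedge, linePath]; ring
  have hP := hW.pos x l hl
  have g0 := mixed_pos W hW c m hm hc hcoh hK 0 x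
  have g1 := mixed_pos W hW c m hm hc hcoh hK 1 x
  have g2 := mixed_pos W hW c m hm hc hcoh hK 2 x
  have hL : 0 < l 0 ^ 2 + l 1 ^ 2 + l 2 ^ 2 := by
    by_contra h
    have h0 : l 0 ^ 2 + l 1 ^ 2 + l 2 ^ 2 ≤ 0 := not_lt.1 h
    have a0 : l 0 = 0 := by nlinarith [sq_nonneg (l 0), sq_nonneg (l 1), sq_nonneg (l 2)]
    have a1 : l 1 = 0 := by nlinarith [sq_nonneg (l 0), sq_nonneg (l 1), sq_nonneg (l 2)]
    have a2 : l 2 = 0 := by nlinarith [sq_nonneg (l 0), sq_nonneg (l 1), sq_nonneg (l 2)]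
    apply hl
    ext i
    fin_cases i
    · exact a0
    · exact a1
    · exact a2
  have hsum : ∑ i, ∑ j, l i * l j * wedge (linePath W c t i x) (linePath W c t j x)
      = (1 - t) ^ 2 * (∑ i, ∑ j, l i * l j * wedge (W i x) (W j x))
        + 2 * ((1 - t) * t) * (l 0 ^ 2 * wedge (W 0 x) (c 0) + l 1 ^ 2 * wedge (W 1 x) (c 1)
          + l 2 ^ 2 * wedge (W 2 x) (c 2))
        + t ^ 2 * (m * (l 0 ^ 2 + l 1 ^ 2 + l 2 ^ 2)) := by
    simp only [key, Fin.sum_univ_three]
    rw [hK x 0 1 (by decide), hK x 0 2 (by decide), hK x 1 0 (by decide), hK x 1 2 (by decide),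
      hK x 2 0 (by decide), hK x 2 1 (by decide)]
    simp only [hc]
    simp
    ring
  rw [hsum]
  have t0 : 0 ≤ t := ht.1
  have t1 : 0 ≤ 1 - t := by linarith [ht.2]
  have hmid : 0 ≤ 2 * ((1 - t) * t) * (l 0 ^ 2 * wedge (W 0 x) (c 0)
      + l 1 ^ 2 * wedge (W 1 x) (c 1) + l 2 ^ 2 * wedge (W 2 x) (c 2)) := by positivity
  rcases eq_or_lt_of_le ht.2 with h1 | h1
  · have : 0 < t ^ 2 * (m * (l 0 ^ 2 + l 1 ^ 2 + l 2 ^ 2)) := by
      rw [h1]; positivity
    have h3 : 0 ≤ (1 - t) ^ 2 * (∑ i, ∑ j, l i * l j * wedge (W i x) (W j x)) := by positivity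
    linarith
  · have : 0 < (1 - t) ^ 2 * (∑ i, ∑ j, l i * l j * wedge (W i x) (W j x)) := by
      have : 0 < 1 - t := by linarith
      positivity
    have h3 : 0 ≤ t ^ 2 * (m * (l 0 ^ 2 + l 1 ^ 2 + l 2 ^ 2)) := by positivity
    linarith

/-- On the four-torus, let `W` be a hypersymplectic structure cohomologous to a constant
hyperkaehler triple `c`, with `W i` wedge `c j` vanishing identically for `i ≠ j`.
Then the straight line from `W` to `c` is a cohomologous deformation of `W` through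
hypersymplectic structures, ending at the hyperkaehler triple `c`. -/
theorem result (W : Fin 3 → R4 → Fin 4 → Fin 4 → ℝ) (hW : IsHypersymplectic W)
    (c : Fin 3 → Fin 4 → Fin 4 → ℝ) (hca : ∀ i j k, c i j k = - c i k j)
    (m : ℝ) (hm : 0 < m)
    (hc : ∀ i j, wedge (c i) (c j) = if i = j then m else 0)
    (hcoh : ∀ i, Cohomologous (fun _ => c i) (W i))
    (hK : ∀ x i j, i ≠ j → wedge (W i x) (c j) = 0) :
    ∃ Om : ℝ → Fin 3 → R4 → Fin 4 → Fin 4 → ℝ,
      IsCohomologousDeformation W Om ∧ IsHyperkaehler (Om 1) ∧ Om 1 = fun i _ => c i := by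
  refine ⟨linePath W c, ⟨?_, ?_, ?_, ?_⟩, ⟨?_, ?_, ?_⟩, ?_⟩
  · intro i j k
    exact ((contDiff_const.sub contDiff_fst).mul
      (((hW.form i).smooth j k).comp contDiff_snd)).add (contDiff_fst.mul contDiff_const)
  · intro t ht
    exact ⟨linePath_form W hW.form c hca t, linePath_closed W hW.form hW.closed c t,
      fun x l hl => linePath_pos W hW c m hm hc hcoh hK t ht x l hl⟩
  · ext i x j k
    simp [linePath]
  · intro t _ i
    obtain ⟨a, ha, hda⟩ := hcoh i
    refine ⟨fun x k => (-t) * a x k, ⟨fun k => contDiff_const.mul (ha.smooth k), ?_⟩, ?_⟩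
    · intro x k
      have := ha.periodic x k
      ext k'
      simp only [this]
    · intro x j k
      have hd : ∀ k, Differentiable ℝ (fun y => a y k) := fun k =>
        (ha.smooth k).differentiable (by simp)
      rw [pd_smul j _ (hd k), pd_smul k _ (hd j)]
      have h3 : W i x j k - c i j k
          = pd j (fun y => a y k) x - pd k (fun y => a y j) x := hda x j k
      simp only [linePath]
      have h4 : (1 - t) * W i x j k + t * c i j k - W i x j k
          = (-t) * (W i x j k - c i j k) := by ring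
      rw [h4, h3]; ring
  · exact linePath_form W hW.form c hca 1
  · exact linePath_closed W hW.form hW.closed c 1
  · refine ⟨fun _ => m / 2, contDiff_const, fun _ _ => rfl, fun _ => by positivity, ?_⟩
    intro x i j
    have h1 : ∀ i, linePath W c 1 i x = c i := by
      intro i
      ext j k
      simp [linePath]
    rw [h1, h1, hc]
    by_cases h : i = j
    · simp only [h, if_true]; ring
    · simp [h]
  · ext i x j k
    simp [linePath]

end Vale.Agent.Results.P247.TorusTriKaehler
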